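import Vale.Agent.P207.N3.H265.Mc
import Vale.Agent.P207.N3.H156.DirA
import Vale.Agent.P207.N3.H440.Gra3
import Vale.Agent.P207.N3.H747.USysI

/-!
# P207, line N3: the direction field of the unstable leaves over model (A)

`dirS : (geoA hN m).Dir (jA _ m)` from a slope function of 248's theorem; `ode_dirS` the field
`ode` of 76's `In3`.
-/

open scoped Manifold ContDiff ENNReal Topology
open Bundle MeasureTheory Set Filter Topology Metric

noncomputable section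

set_option maxSynthPendingDepth 3
set_option linter.unusedSectionVars false

namespace Vale.Agent.P207.N3.H459

open Vale.Agent.P255 (RMetric coefIn Gam Riem IsGeo Metric Npc ExpSys toMetric geo expg cc trans
  IsGeodesic coefL chris chrisB IsMetricOn covD)
open Vale.Agent.P207 Vale.Agent.P207.Q Vale.Agent.P207.Q.Fl
open Vale.Agent.P207.N3.H465 (Deck PB Mt toMt ofMt Xt homeoMt dd)
open Vale.Agent.P207.N3.H566 (XF XM Exp lift dd_Exp)
open Vale.Agent.P207.N3.H747 (fl TubeR usys DF src Lc)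
open Vale.Agent.P207.N3.H156 (geoA jA dirA lfA co)
open Vale.Agent.P207.N3.H265 (Mc zt wt jc_zt DF_eq)
open Vale.Agent.P207.N3.H76 (pk)
open Vale.Agent.P207.N3.H440 (flx lfx exists_graph ode_graph)

variable {M : Type} [TopologicalSpace M] [ChartedSpace (EV 3) M]
  [IsManifold 𝓘(ℝ, EV 3) ∞ M] {g : RMetric (EV 3) M} [CompactSpace M] [T2Space M]
  [Nonempty (Fr g)]

/-- `co` of a multiple of `e0` -/
theorem co_e0 (s : ℝ) : co (s • H76.e0) = s • (Pi.single 0 1 : Fin 3 → ℝ) := by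
  funext i
  fin_cases i <;> simp [co, H76.e0]

section

variable (h : Npc (mt g)) (m : M) (Dm : MDat g (fl g)) {ρ : ℝ} (hT : TubeR g ρ)
  {ε δ : ℝ} {gs : Fr g → E2 → E2} (hg : (usys Dm hT).Slope ε δ gs)

include hg in
theorem graphS : ∃ ε₁, 0 < ε₁ ∧ ε₁ < ε ∧ ∀ x : XM h m, ∀ u ∈ closedBall (0 : E2) ε₁,
      Mc g (x.f, pk 0 u) (pk 1 (gs x.f u)) ≠ 0 ∧
      ∃ (v : ℝ → E2) (θ : ℝ → ℝ), v 0 = u ∧ θ 0 = 0 ∧ Continuous θ ∧ ∀ t ≤ 0, θ t ≤ 0 ∧
        ‖v t‖ ≤ δ ∧ ‖v t‖ ≤ Real.exp ((usys Dm hT).χ / 2 * t) * ‖u‖ ∧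
        v t ∈ closedBall (0 : E2) ε₁ ∧
        HasDerivWithinAt v (gs (fl g t x.f) (v t)) (Iic 0) t ∧
        Exp ((sys g h).cov m) (flx ((sys g h).cov m) t x) (pk 0 (v t)) =
          Exp ((sys g h).cov m) (lfx ((sys g h).cov m) x u)
          (θ t • (‖Mc g (x.f, pk 0 u) (pk 1 (gs x.f u))‖⁻¹ •
            Mc g (x.f, pk 0 u) (pk 1 (gs x.f u)))) :=
  exists_graph ((sys g h).cov m) hT (usys Dm hT) rfl rfl hg.δ_lt hg (Mc g)
    fun _ _ hq v => DF_eq hq v

/-- the radius -/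
def epS : ℝ := (graphS h m Dm hT hg).choose

theorem epS_pos : 0 < epS h m Dm hT hg := (graphS h m Dm hT hg).choose_spec.1

theorem epS_lt : epS h m Dm hT hg < ε := (graphS h m Dm hT hg).choose_spec.2.1

/-- the past of the geodesic of `zt` is a graph over the axis -/
theorem epS_graph (x : XM h m) {u : E2} (hu : u ∈ closedBall (0 : E2) (epS h m Dm hT hg)) :
    wt g gs x.f u ≠ 0 ∧
      ∃ (v : ℝ → E2) (θ : ℝ → ℝ), v 0 = u ∧ θ 0 = 0 ∧ Continuous θ ∧ ∀ t ≤ 0, θ t ≤ 0 ∧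
        ‖v t‖ ≤ δ ∧ ‖v t‖ ≤ Real.exp ((usys Dm hT).χ / 2 * t) * ‖u‖ ∧
        v t ∈ closedBall (0 : E2) (epS h m Dm hT hg) ∧
        HasDerivWithinAt v (gs (fl g t x.f) (v t)) (Iic 0) t ∧
        Exp ((sys g h).cov m) (flx ((sys g h).cov m) t x) (pk 0 (v t)) =
          Exp ((sys g h).cov m) (lfA h m x u) (θ t • zt g gs x.f u) :=
  (graphS h m Dm hT hg).choose_spec.2.2 x u hu

theorem norm_lt_of_epS [Nonempty (XM h m)] {u : E2}
    (hu : u ∈ closedBall (0 : E2) (epS h m Dm hT hg)) : ‖u‖ < ρ := by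
  obtain ⟨x⟩ : Nonempty (XM h m) := inferInstance
  obtain ⟨-, v, θ, h1, -, -, h2⟩ := epS_graph h m Dm hT hg x hu
  have h3 := (h2 0 le_rfl).2.1
  rw [h1] at h3
  exact h3.trans_lt hg.δ_lt

end

variable [ConnectedSpace M] (hN : NegCurvature g) (m : M)
  (Dm : MDat g (fl g)) {ρ : ℝ} (hT : TubeR g ρ)
  {ε δ : ℝ} {gs : Fr g → E2 → E2} (hg : (usys Dm hT).Slope ε δ gs)

/-- **the direction field, `Dir` over model (A)** -/
def dirS : (geoA hN m).Dir (jA (npc_of_neg hN) m) :=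
  dirA hN m (epS (npc_of_neg hN) m Dm hT hg) (epS_pos _ m Dm hT hg)
    (fun x u => zt g gs x.f u)
    (fun x u hu => by
      have h1 := (epS_graph _ m Dm hT hg x (ball_subset_closedBall hu)).1
      rw [zt, norm_smul, norm_inv, norm_norm, inv_mul_cancel₀ (norm_ne_zero_iff.2 h1)])
    (by
      have h0 : Nonempty (XM (npc_of_neg hN) m) := (geoA hN m).nonempty
      have h1 : JC gs (univ ×ˢ ball 0 (epS (npc_of_neg hN) m Dm hT hg)) := by
        refine JC.mono (S := univ ×ˢ ball 0 ε) ⟨isOpen_univ.prod isOpen_ball, fun x =>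
          (hg.smooth x).mono fun u hu => hu.2, hg.cont⟩ (isOpen_univ.prod isOpen_ball) ?_
        exact prod_mono_right (ball_subset_ball (epS_lt _ m Dm hT hg).le)
      have h2 := jc_zt h1 hT fun p hp =>
        norm_lt_of_epS _ m Dm hT hg (ball_subset_closedBall hp.2)
      have h3 := h2.pullback (PB.continuous_f (e := (sys g (npc_of_neg hN)).e m)
        (pt := Fr.pt (g := g)))
      exact h3)
    (fun x u hu => by
      obtain ⟨-, v, θ, hv0, hθ0, hθ, H⟩ :=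
        epS_graph _ m Dm hT hg x (ball_subset_closedBall hu)
      refine ⟨δ, fun s hs => ⟨θ s, (H s hs).1, ?_⟩⟩
      obtain ⟨-, h2, -, -, -, h3⟩ := H s hs
      change dd (sys g (npc_of_neg hN)) m
        (Exp ((sys g (npc_of_neg hN)).cov m) (lfA _ m x u) (θ s • zt g gs x.f u))
        (lift ((sys g (npc_of_neg hN)).cov m) (co (s • H76.e0)) x).q ≤ δ
      rw [← h3, co_e0, H465.dd_comm]
      change dd (sys g (npc_of_neg hN)) m (flx ((sys g (npc_of_neg hN)).cov m) s x).q _ ≤ δ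
      rw [dd_Exp, H76.norm_pk_zero_left]
      exact h2)

theorem dirS_lf : (dirS hN m Dm hT hg).lf = lfA _ m := rfl

theorem dirS_W : (dirS hN m Dm hT hg).W = fun x u => zt g gs x.f u := rfl

theorem dirS_ε : (dirS hN m Dm hT hg).ε = epS (npc_of_neg hN) m Dm hT hg := rfl

/-- the frame flow of model (A) in the quotient -/
theorem f_φ (t : ℝ) (x : Xt g (npc_of_neg hN) m) :
    ((geoA hN m).φ t x).f = fl g t x.f := by
  change (lift ((sys g (npc_of_neg hN)).cov m) (t • co H76.e0) x).f = _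
  have h1 : t • co H76.e0 = t • (Pi.single 0 1 : Fin 3 → ℝ) := by
    have h2 := co_e0 t
    rwa [H156.co_smul] at h2
  rw [h1]
  exact H440.f_flx _ _ _

include hg in
/-- **the field `ode`** of `In3` for `dirS` -/
theorem ode_dirS : ∃ δ' : ℝ, 0 < δ' ∧ ∀ x, ∀ t ≥ (0 : ℝ), ∀ u : ℝ → E2,
    (∀ s ∈ Icc 0 t, HasDerivWithinAt u (gs ((geoA hN m).φ s x).f (u s)) (Icc 0 t) s) →
    (∀ s ∈ Icc 0 t, ‖u s‖ ≤ δ') →
    ∃ τ : ℝ, (geoA hN m).E ((dirS hN m Dm hT hg).lf x (u 0))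
      (τ • (dirS hN m Dm hT hg).W x (u 0)) = (geoA hN m).E ((geoA hN m).φ t x) (pk 0 (u t)) := by
  obtain ⟨ε₁, h0, -, H⟩ := ode_graph ((sys g (npc_of_neg hN)).cov m) hT (usys Dm hT) rfl rfl
    hg.δ_lt hg
  refine ⟨ε₁, h0, fun x t ht u hu hub => ?_⟩
  simp only [f_φ] at hu
  obtain ⟨τ, hτ⟩ := H x t ht u hu hub (wt g gs x.f (u 0)) _ (H747.mem_src_self _)
    (DF_eq (H747.mem_src_self _) _)
  refine ⟨τ, ?_⟩
  have h1 : t • co H76.e0 = t • (Pi.single 0 1 : Fin 3 → ℝ) := by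
    have h2 := co_e0 t
    rwa [H156.co_smul] at h2
  change toMt _ _ (Exp ((sys g (npc_of_neg hN)).cov m) (lfA _ m x (u 0))
    (τ • zt g gs x.f (u 0))) = toMt _ _ (Exp ((sys g (npc_of_neg hN)).cov m)
      (lift ((sys g (npc_of_neg hN)).cov m) (t • co H76.e0) x) (pk 0 (u t)))
  rw [h1]
  exact congrArg (toMt _ _) hτ

/-- **the derivative of the direction field at `0`** is the unstable Riccati solution -/
theorem hasFDerivAt_dirS (x : Xt g (npc_of_neg hN) m) :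
    HasFDerivAt ((dirS hN m Dm hT hg).W x) (H265.pk0C.comp (H747.UC Dm x.f)) 0 := by
  refine H265.hasFDerivAt_zt x.f (hg.zero x.f) ?_
  have h1 : HasFDerivAt (gs x.f) (fderiv ℝ (gs x.f) 0) 0 :=
    (((hg.smooth x.f).contDiffAt (isOpen_ball.mem_nhds (mem_ball_self hg.ε_pos))
      ).differentiableAt (by simp)).hasFDerivAt
  rw [hg.deriv x.f] at h1
  exact h1

theorem dirS_zero (x : Xt g (npc_of_neg hN) m) : (dirS hN m Dm hT hg).W x 0 = H76.e0 :=
  H265.zt_zero x.f (hg.zero x.f)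

theorem dirS_deck (γ : H156.Dk (npc_of_neg hN) m) (x : Xt g (npc_of_neg hN) m) (u : E2) :
    (dirS hN m Dm hT hg).W (γ • x) u = (dirS hN m Dm hT hg).W x u := rfl

end Vale.Agent.P207.N3.H459
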