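import Vale.Agent.P207.N3.H566.Glob
import Vale.Agent.P207.N3.H747.Fermi
import Vale.Agent.P207.N3.H459.Inv
import Vale.Agent.P207.N3.H76.Ext

/-!
# P207, line N3: the Fermi map of the universal cover and its derivative in the transported frames

`Lt x z`: the frame `x` moved by the frame flow for the time `z 0`, then along the geodesic of
direction `(0, z 1, z 2)`; `Ft x z` its foot point; `Mt x z` = the derivative of `Ft x` at `z`,
written in the frame `Lt x z`.
-/

open scoped Manifold ContDiff ENNReal Topology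
open Bundle MeasureTheory Set Filter Topology

noncomputable section

set_option maxSynthPendingDepth 3
set_option linter.unusedSectionVars false

namespace Vale.Agent.P207.N3.H459

open Vale.Agent.P255 (RMetric coefIn Gam Riem IsGeo Metric Npc ExpSys toMetric geo expg cc trans
  IsGeodesic coefL chris chrisB IsMetricOn covD)
open Vale.Agent.P207 Vale.Agent.P207.Q Vale.Agent.P207.Q.Fl
open Vale.Agent.P207.N3.H465 (Deck PB)
open Vale.Agent.P207.N3.H566

variable {M : Type} [TopologicalSpace M] [ChartedSpace (EV 3) M] [IsManifold 𝓘(ℝ, EV 3) ∞ M]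
  {g : RMetric (EV 3) M} [Nonempty (Fr g)] [CompactSpace M] [T2Space M]
  (h : Npc (mt g)) (m : M)

/-- the frame flow of the covering -/
def ph (s : ℝ) (x : XM h m) : XM h m := lift ((sys g h).cov m) (s • Pi.single 0 1) x

/-- the Fermi map of the covering, with frames -/
def Lt (x : XM h m) (z : EV 3) : XM h m :=
  lift ((sys g h).cov m) (H747.dir z) (ph h m (z 0) x)

/-- the Fermi map of the covering -/
def Ft (x : XM h m) (z : EV 3) : EV 3 := (Lt h m x z).q

theorem ph_zero (x : XM h m) : ph h m 0 x = x := by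
  rw [ph, zero_smul, lift_zero]

theorem ph_add (s t : ℝ) (x : XM h m) : ph h m (s + t) x = ph h m s (ph h m t x) :=
  lift_add _ _ s t x

theorem ph_deck (γ : Deck ((sys g h).e m)) (s : ℝ) (x : XM h m) :
    ph h m s (γ • x) = γ • ph h m s x := lift_deck _ γ _ x

theorem f_ph (s : ℝ) (x : XM h m) : (ph h m s x).f = H747.fl g s x.f := by
  rw [ph, f_lift, H747.fl, flow_eq_hflow]

theorem f_Lt (x : XM h m) (z : EV 3) : (Lt h m x z).f = H747.Lf g (x.f, z) := by
  rw [Lt, f_lift, f_ph]
  rfl

theorem Lt_deck (γ : Deck ((sys g h).e m)) (x : XM h m) (z : EV 3) :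
    Lt h m (γ • x) z = γ • Lt h m x z := by
  rw [Lt, ph_deck, lift_deck, Lt]

theorem Ft_deck (γ : Deck ((sys g h).e m)) (x : XM h m) (z : EV 3) :
    Ft h m (γ • x) z = γ • Ft h m x z := by
  rw [Ft, Lt_deck]
  rfl

/-! ### smoothness -/

theorem Lt_plot {E : Type} [NormedAddCommGroup E] [NormedSpace ℝ E] [FiniteDimensional ℝ E]
    {u : E → XM h m} {v : E → EV 3} {y : E} (hu : (difX g ((sys g h).e m)).At u y)
    (hv : Sm v y) : (difX g ((sys g h).e m)).At (fun w => Lt h m (u w) (v w)) y := by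
  have h1 : Sm (fun w => v w 0 • (Pi.single 0 1 : Fin 3 → ℝ)) y := by
    have h2 : ContDiff ℝ ∞ fun z : EV 3 => z 0 • (Pi.single 0 1 : Fin 3 → ℝ) :=
      (H747.contDiff_coord 0).smul contDiff_const
    exact Sm.comp' (f := fun z : EV 3 => z 0 • (Pi.single 0 1 : Fin 3 → ℝ))
      (Sm.of_contDiff h2 _) hv
  have h3 : Sm (fun w => H747.dir (v w)) y :=
    Sm.comp' (f := H747.dir) (Sm.of_contDiff H747.contDiff_dir _) hv
  exact lift_plot (locDif_e h m) ((sys g h).cov m)
    (lift_plot (locDif_e h m) ((sys g h).cov m) hu h1) h3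

theorem smOn_Ft : SmOn (difX g ((sys g h).e m)) (Ft h m) univ :=
  fun hu hv _ => (Lt_plot h m hu hv).1

theorem smOn_EXL : SmOn (difX g ((sys g h).e m)) (fun x z => EX h m (Lt h m x z)) univ :=
  fun hu hv _ => EX_plot h m (Lt_plot h m hu hv)

theorem jc_Ft : JC (Ft h m) univ :=
  SmOn.jc (sec_difX (locDif_e h m)) (smOn_Ft h m) isOpen_univ

theorem jc_EXL : JC (fun (x : XM h m) z => EX h m (Lt h m x z)) univ :=
  SmOn.jc (sec_difX (locDif_e h m)) (smOn_EXL h m) isOpen_univ

theorem isInvertible_EX (x : XM h m) : (EX h m x).IsInvertible := ⟨EXe h m x, coe_EXe h m x⟩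

theorem EX_inverse (x : XM h m) (v : EV 3) : EX h m x ((EX h m x).inverse v) = v := by
  have h1 : (EX h m x).inverse = ((EXe h m x).symm : EV 3 →L[ℝ] EV 3) := by
    rw [← coe_EXe, ContinuousLinearMap.inverse_equiv]
  rw [h1]
  change EX h m x ((EXe h m x).symm v) = v
  rw [← EXe_apply, ContinuousLinearEquiv.apply_symm_apply]

/-- the derivative of the Fermi map in the transported frame -/
def Mt (x : XM h m) (z : EV 3) : EV 3 →L[ℝ] EV 3 :=
  (EX h m (Lt h m x z)).inverse.comp (fderiv ℝ (Ft h m x) z)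

theorem EX_Mt (x : XM h m) (z v : EV 3) :
    EX h m (Lt h m x z) (Mt h m x z v) = fderiv ℝ (Ft h m x) z v :=
  EX_inverse h m _ _

theorem jc_Mt : JC (Mt h m) univ :=
  ((jc_EXL h m).inverse' fun _ _ => isInvertible_EX h m _).clm_comp (jc_Ft h m).fderiv

theorem differentiableAt_Ft (x : XM h m) (z : EV 3) : DifferentiableAt ℝ (Ft h m x) z :=
  (jc_Ft h m).differentiableAt (mem_univ (x, z))

/-! ### the axis -/

theorem dir_add_single (z : EV 3) (s : ℝ) :
    H747.dir (z + EuclideanSpace.single 0 s) = H747.dir z := by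
  unfold H747.dir
  simp

theorem dir_of_zero {w : EV 3} (hw : w 0 = 0) : H747.dir w = fun i => w i := by
  unfold H747.dir
  funext i
  fin_cases i
  · simp [hw]
  · rfl
  · rfl

theorem Lt_shift (x : XM h m) (z : EV 3) (s : ℝ) :
    Lt h m x (z + EuclideanSpace.single 0 s) = Lt h m (ph h m s x) z := by
  unfold Lt
  rw [dir_add_single, ← ph_add]
  simp

theorem Lt_of_zero {x : XM h m} {w : EV 3} (hw : w 0 = 0) :
    Lt h m x w = lift ((sys g h).cov m) (fun i => w i) x := by
  rw [Lt, hw, ph_zero, dir_of_zero hw]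

theorem Lt_zero (x : XM h m) : Lt h m x 0 = x := by
  rw [Lt_of_zero h m (by simp)]
  exact lift_zero _ x

theorem Lt_single (x : XM h m) (s : ℝ) : Lt h m x (EuclideanSpace.single 0 s) = ph h m s x := by
  have h1 := Lt_shift h m x 0 s
  rwa [zero_add, Lt_zero] at h1

theorem Ft_of_zero {x : XM h m} {w : EV 3} (hw : w 0 = 0) :
    Ft h m x w = Exp ((sys g h).cov m) x w := by
  rw [Ft, Lt_of_zero h m hw, Exp]

theorem fderiv_Ft_shift (x : XM h m) (z : EV 3) (s : ℝ) :
    fderiv ℝ (Ft h m x) (z + EuclideanSpace.single 0 s) = fderiv ℝ (Ft h m (ph h m s x)) z := by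
  have h1 : Ft h m (ph h m s x) = fun w => Ft h m x (w + EuclideanSpace.single 0 s) := by
    funext w
    unfold Ft
    rw [Lt_shift]
  rw [h1, fderiv_comp_add_right (f := Ft h m x)]

theorem single_eq (s : ℝ) : (EuclideanSpace.single 0 s : EV 3) =
    s • EuclideanSpace.single (0 : Fin 3) (1 : ℝ) := by
  ext i
  simp [PiLp.single_apply]

theorem coe_single : (fun i => (EuclideanSpace.single (0 : Fin 3) (1 : ℝ) : EV 3) i) =
    (Pi.single 0 1 : Fin 3 → ℝ) := by
  funext i
  simp [PiLp.single_apply, Pi.single_apply]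

/-- the velocity of the foot point along the frame flow -/
theorem hasDerivAt_ph (x : XM h m) (t : ℝ) : HasDerivAt (fun s : ℝ => (ph h m s x).q)
    (EX h m (ph h m t x) (EuclideanSpace.single 0 1)) t := by
  have h1 := hasDerivAt_lift h m x (EuclideanSpace.single (0 : Fin 3) (1 : ℝ)) t
  rw [coe_single] at h1
  exact h1

/-- the derivative at the foot point is the frame -/
theorem fderiv_Ft_zero (x : XM h m) : fderiv ℝ (Ft h m x) 0 = EX h m x := by
  have hD := (differentiableAt_Ft h m x 0).hasFDerivAt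
  have h0 : fderiv ℝ (Ft h m x) 0 (EuclideanSpace.single 0 (1 : ℝ)) =
      EX h m x (EuclideanSpace.single 0 1) := by
    have h1 : HasDerivAt (fun s : ℝ => (EuclideanSpace.single (0 : Fin 3) s : EV 3))
        (EuclideanSpace.single (0 : Fin 3) (1 : ℝ)) 0 := by
      have h2 : (fun s : ℝ => (EuclideanSpace.single (0 : Fin 3) s : EV 3)) =
          fun s : ℝ => s • EuclideanSpace.single (0 : Fin 3) (1 : ℝ) := funext single_eq
      rw [h2]
      simpa using (hasDerivAt_id (0 : ℝ)).smul_const (EuclideanSpace.single (0 : Fin 3) (1 : ℝ))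
    have h3 : HasDerivAt (fun s : ℝ => Ft h m x (EuclideanSpace.single (0 : Fin 3) s))
        (fderiv ℝ (Ft h m x) 0 (EuclideanSpace.single 0 (1 : ℝ))) 0 := by
      refine HasFDerivAt.comp_hasDerivAt_of_eq (l := Ft h m x) 0 hD h1 ?_
      ext i
      simp
    have h4 : (fun s : ℝ => Ft h m x (EuclideanSpace.single (0 : Fin 3) s)) =
        fun s => (ph h m s x).q := by
      funext s
      rw [Ft, Lt_single]
    rw [h4] at h3
    have h5 := hasDerivAt_ph h m x 0
    rw [ph_zero] at h5
    exact h3.unique h5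
  have h1 : ∀ w : EV 3, w 0 = 0 → fderiv ℝ (Ft h m x) 0 w = EX h m x w := by
    intro w hw
    have h2 : HasDerivAt (fun t : ℝ => t • w) w 0 := by
      simpa using (hasDerivAt_id (0 : ℝ)).smul_const w
    have h3 : HasDerivAt (fun t : ℝ => Ft h m x (t • w)) (fderiv ℝ (Ft h m x) 0 w) 0 := by
      refine HasFDerivAt.comp_hasDerivAt_of_eq (l := Ft h m x) 0 hD h2 ?_
      simp
    have h4 : (fun t : ℝ => Ft h m x (t • w)) =
        fun t => Exp ((sys g h).cov m) x (t • w) := by
      funext t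
      exact Ft_of_zero h m (by simp [hw])
    rw [h4] at h3
    exact h3.unique (hasDerivAt_Exp_smul h m x w)
  ext1 v
  have h2 : v = v 0 • EuclideanSpace.single (0 : Fin 3) (1 : ℝ) +
      (v - v 0 • EuclideanSpace.single (0 : Fin 3) (1 : ℝ)) := by abel
  have h3 : (v - v 0 • EuclideanSpace.single (0 : Fin 3) (1 : ℝ) : EV 3) 0 = 0 := by simp
  rw [h2, map_add, map_add, h1 _ h3, map_smul, map_smul, h0]

theorem fderiv_Ft_single (x : XM h m) (s : ℝ) :
    fderiv ℝ (Ft h m x) (EuclideanSpace.single 0 s) = EX h m (ph h m s x) := by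
  have h1 := fderiv_Ft_shift h m x 0 s
  rwa [zero_add, fderiv_Ft_zero] at h1

/-- on the axis the derivative is the identity -/
theorem Mt_single (x : XM h m) (s : ℝ) (v : EV 3) :
    Mt h m x (EuclideanSpace.single 0 s) v = v := by
  have h1 := EX_Mt h m x (EuclideanSpace.single 0 s) v
  rw [fderiv_Ft_single, Lt_single] at h1
  exact EX_injective h m _ h1

theorem Mt_zero (x : XM h m) (v : EV 3) : Mt h m x 0 v = v := by
  have h1 := Mt_single h m x 0 v
  rwa [show (EuclideanSpace.single 0 0 : EV 3) = 0 by simp] at h1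

/-! ### invariance under the deck group, relation with the Fermi map of the quotient -/

theorem Mt_deck (γ : Deck ((sys g h).e m)) (x : XM h m) (z : EV 3) :
    Mt h m (γ • x) z = Mt h m x z := by
  ext1 v
  have h1 := EX_Mt h m (γ • x) z v
  have h2 : HasFDerivAt (Ft h m (γ • x)) ((fderiv ℝ (fun q : EV 3 => γ • q) (Ft h m x z)).comp
      (fderiv ℝ (Ft h m x) z)) z := by
    have h3 : Ft h m (γ • x) = fun w => γ • Ft h m x w := funext fun w => Ft_deck h m γ x w
    rw [h3]
    exact (fderiv_deck h m γ (Ft h m x z)).comp z (differentiableAt_Ft h m x z).hasFDerivAt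
  rw [h2.fderiv, Lt_deck, EX_deck] at h1
  apply EX_injective h m (γ • Lt h m x z)
  rw [EX_deck, h1]
  change _ = fderiv ℝ (fun q : EV 3 => γ • q) (Lt h m x z).q (EX h m (Lt h m x z) (Mt h m x z v))
  rw [EX_Mt]
  rfl

theorem Fc_eq_Ft (a : M) (x : XM h m) (z : EV 3) :
    H747.Fc g a (x.f, z) = chartAt (EV 3) a ((sys g h).e m (Ft h m x z)) := by
  rw [H747.Fc_eq, H747.Fp, ← f_Lt h m]
  exact congrArg (chartAt (EV 3) a) (PB.e_q (Lt h m x z)).symm

/-- **the derivative of the Fermi map of the quotient** -/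
theorem DF_eq {a : M} (x : XM h m) {z : EV 3} (ha : (x.f, z) ∈ H747.src g a) (v : EV 3) :
    H747.DF g a (x.f, z) v = ∑ i, (Mt h m x z v) i • (H747.Lc g a (x.f, z)).2 i := by
  have ha' : (sys g h).e m (Ft h m x z) ∈ (chartAt (EV 3) a).source := by
    have h1 : (sys g h).e m (Ft h m x z) = H747.Fp g (x.f, z) := by
      rw [H747.Fp, ← f_Lt h m]
      exact PB.e_q (Lt h m x z)
    rw [h1]
    exact ha
  have h1 : (fun w => H747.Fc g a (x.f, w)) =
      fun w => chartAt (EV 3) a ((sys g h).e m (Ft h m x w)) := funext fun w => Fc_eq_Ft h m a x w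
  have h2 : HasFDerivAt (fun w => chartAt (EV 3) a ((sys g h).e m (Ft h m x w)))
      ((fderiv ℝ (fun q => chartAt (EV 3) a ((sys g h).e m q)) (Ft h m x z)).comp
        (fderiv ℝ (Ft h m x) z)) z := by
    have h3 : HasFDerivAt (fun q => chartAt (EV 3) a ((sys g h).e m q))
        (fderiv ℝ (fun q => chartAt (EV 3) a ((sys g h).e m q)) (Ft h m x z)) (Ft h m x z) :=
      (((locDif_e h m).smooth a _ ha').differentiableAt (by simp)).hasFDerivAt
    exact h3.comp z (differentiableAt_Ft h m x z).hasFDerivAt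
  have h3 : H747.DF g a (x.f, z) v = fderiv ℝ (fun q => chartAt (EV 3) a ((sys g h).e m q))
      (Ft h m x z) (fderiv ℝ (Ft h m x) z v) := by
    rw [H747.DF]
    change fderiv ℝ (fun w => H747.Fc g a (x.f, w)) z v = _
    rw [h1, h2.fderiv]
    rfl
  rw [h3, ← EX_Mt]
  change fderiv ℝ (fun q => chartAt (EV 3) a ((sys g h).e m q)) (Lt h m x z).q
    (EX h m (Lt h m x z) (Mt h m x z v)) = _
  rw [EX_chart h m (Lt h m x z) (Mt h m x z v) ha', f_Lt]
  rfl

end Vale.Agent.P207.N3.H459
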