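import Vale.Agent.P207.N3.H265.Mc
import Vale.Agent.P207.N3.H459.FerM

/-!
# P207, line N3: `Mc` (quotient) is `Mt` (cover)
-/

open scoped Manifold ContDiff ENNReal Topology
open Bundle MeasureTheory Set Filter Topology

noncomputable section

set_option maxSynthPendingDepth 3
set_option linter.unusedSectionVars false

namespace Vale.Agent.P207.N3.H459

open Vale.Agent.P255 (RMetric coefIn Gam Riem IsGeo Metric Npc ExpSys toMetric geo expg cc trans
  IsGeodesic coefL chris chrisB IsMetricOn covD)
open Vale.Agent.P207 Vale.Agent.P207.Q Vale.Agent.P207.Q.Fl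
open Vale.Agent.P207.N3.H465 (Deck PB)
open Vale.Agent.P207.N3.H566

variable {M : Type} [TopologicalSpace M] [ChartedSpace (EV 3) M] [IsManifold 𝓘(ℝ, EV 3) ∞ M]
  {g : RMetric (EV 3) M} [Nonempty (Fr g)] [CompactSpace M] [T2Space M]
  (h : Npc (mt g)) (m : M)

/-- 265's `Mc` in the quotient is `Mt` in the cover -/
theorem Mc_eq_Mt (x : XM h m) (z : EV 3) : H265.Mc g (x.f, z) = Mt h m x z := by
  have hs := H747.mem_src_self (g := g) (x.f, z)
  ext v j
  rw [H265.Mc_apply hs v j, DF_eq h m x hs v, map_sum]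
  have ho := H265.orth_Lc hs
  simp only [map_smul, smul_eq_mul, ho j, mul_ite, mul_one, mul_zero]
  simp

end Vale.Agent.P207.N3.H459
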